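import Mathlib

/-!
Definitions for the zero-field Sherrington-Kirkpatrick Gibbs measure on n spins and
its heat-bath (Glauber) dynamics, for an arbitrary realisation of the disorder.
A configuration is a function `Fin n → Bool`; the bit `true` is the spin +1 and `false` is -1.
-/

namespace Vale.Agent.Lib.P150

/-- The spin value of a bit: `true` is +1 and `false` is -1. -/
def spin (b : Bool) : ℝ := if b then 1 else -1

/-- The exponent of the Gibbs weight: (β / √n) Σ_{i<j} g i j x_i x_j. -/
noncomputable def hamiltonian (n : ℕ) (β : ℝ) (g : Fin n → Fin n → ℝ) (x : Fin n → Bool) : ℝ :=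
  β / Real.sqrt n *
    ∑ i : Fin n, ∑ j : Fin n, if i < j then g i j * spin (x i) * spin (x j) else 0

/-- The partition function Z. -/
noncomputable def partitionFn (n : ℕ) (β : ℝ) (g : Fin n → Fin n → ℝ) : ℝ :=
  ∑ x : Fin n → Bool, Real.exp (hamiltonian n β g x)

/-- The Gibbs measure μ(x) = exp(H(x)) / Z. -/
noncomputable def gibbs (n : ℕ) (β : ℝ) (g : Fin n → Fin n → ℝ) (x : Fin n → Bool) : ℝ :=
  Real.exp (hamiltonian n β g x) / partitionFn n β g

/-- Expectation of an observable under the Gibbs measure. -/
noncomputable def expect (n : ℕ) (β : ℝ) (g : Fin n → Fin n → ℝ)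
    (f : (Fin n → Bool) → ℝ) : ℝ :=
  ∑ x : Fin n → Bool, gibbs n β g x * f x

/-- The operator Q_i: conditional expectation under μ given the spins other than i,
that is, the heat-bath update at site i. -/
noncomputable def condExp (n : ℕ) (β : ℝ) (g : Fin n → Fin n → ℝ) (i : Fin n)
    (f : (Fin n → Bool) → ℝ) (x : Fin n → Bool) : ℝ :=
  (∑ b : Bool, gibbs n β g (Function.update x i b) * f (Function.update x i b)) /
    (∑ b : Bool, gibbs n β g (Function.update x i b))

/-- The generator L = Σ_i (Q_i - I) of the continuous-time heat-bath dynamics. -/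
noncomputable def generator (n : ℕ) (β : ℝ) (g : Fin n → Fin n → ℝ)
    (f : (Fin n → Bool) → ℝ) (x : Fin n → Bool) : ℝ :=
  ∑ i : Fin n, (condExp n β g i f x - f x)

/-- The Dirichlet form of -L in L²(μ): the inner product of f with -L f. -/
noncomputable def dirichlet (n : ℕ) (β : ℝ) (g : Fin n → Fin n → ℝ)
    (f : (Fin n → Bool) → ℝ) : ℝ :=
  expect n β g (fun x => f x * (-(generator n β g f x)))

/-- The variance of an observable under μ. -/
noncomputable def variance (n : ℕ) (β : ℝ) (g : Fin n → Fin n → ℝ)
    (f : (Fin n → Bool) → ℝ) : ℝ :=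
  expect n β g (fun x => (f x - expect n β g f) ^ 2)

/-- The spectral gap of -L on L²(μ), through its variational characterisation:
the infimum of the Rayleigh quotients (Dirichlet form over variance) of non-constant observables. -/
noncomputable def gap (n : ℕ) (β : ℝ) (g : Fin n → Fin n → ℝ) : ℝ :=
  sInf {r : ℝ | ∃ f : (Fin n → Bool) → ℝ,
    variance n β g f ≠ 0 ∧ r = dirichlet n β g f / variance n β g f}

/-- The second moment of the overlap R = (1/n) Σ_i x_i y_i of two independent samples x, y of μ. -/
noncomputable def overlapSq (n : ℕ) (β : ℝ) (g : Fin n → Fin n → ℝ) : ℝ :=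
  ∑ x : Fin n → Bool, ∑ y : Fin n → Bool,
    gibbs n β g x * gibbs n β g y * ((∑ i : Fin n, spin (x i) * spin (y i)) / n) ^ 2

end Vale.Agent.Lib.P150
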