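import Vale.Agent.Lib.P150.Overlap

namespace Vale.Agent.Lib.P150

open Finset

variable {n : ℕ} {β : ℝ} {g : Fin n → Fin n → ℝ}

/-- polarised Dirichlet form -/
noncomputable def dir2 (n : ℕ) (β : ℝ) (g : Fin n → Fin n → ℝ)
    (f h : (Fin n → Bool) → ℝ) : ℝ :=
  (1 / 2) * ∑ i : Fin n, ∑ x : Fin n → Bool,
    edgeW n β g i x * ((f x - f (flipAt i x)) * (h x - h (flipAt i x)))

lemma dirichlet_eq_dir2 (f : (Fin n → Bool) → ℝ) : dirichlet n β g f = dir2 n β g f f := by
  rw [dirichlet_eq]
  unfold dir2
  simp only [sq]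

lemma gibbs_mul_sub_condExp (i : Fin n) (f : (Fin n → Bool) → ℝ) (x : Fin n → Bool) :
    gibbs n β g x * (f x - condExp n β g i f x) =
      edgeW n β g i x * (f x - f (flipAt i x)) := by
  unfold condExp edgeW
  rw [sum_bool_update (fun z => gibbs n β g z * f z) i x, sum_bool_update (fun z => gibbs n β g z) i x]
  have h1 := gibbs_pos (n := n) (β := β) (g := g) x
  have h2 := gibbs_pos (n := n) (β := β) (g := g) (flipAt i x)
  have h3 : gibbs n β g x + gibbs n β g (flipAt i x) ≠ 0 := by positivity
  field_simp
  ring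

lemma expect_mul_generator (f h : (Fin n → Bool) → ℝ) :
    expect n β g (fun x => h x * (-(generator n β g f x))) = dir2 n β g f h := by
  have h0 : expect n β g (fun x => h x * (-(generator n β g f x))) =
      ∑ i : Fin n, ∑ x : Fin n → Bool, edgeW n β g i x * (h x * (f x - f (flipAt i x))) := by
    unfold expect generator
    rw [Finset.sum_comm]
    apply Finset.sum_congr rfl
    intro x _
    have hneg : -∑ i : Fin n, (condExp n β g i f x - f x) =
        ∑ i : Fin n, (f x - condExp n β g i f x) := by
      rw [← Finset.sum_neg_distrib]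
      apply Finset.sum_congr rfl
      intro i _
      ring
    dsimp only
    rw [hneg, Finset.mul_sum, Finset.mul_sum]
    apply Finset.sum_congr rfl
    intro i _
    have := gibbs_mul_sub_condExp (n := n) (β := β) (g := g) i f x
    calc gibbs n β g x * (h x * (f x - condExp n β g i f x))
        = h x * (gibbs n β g x * (f x - condExp n β g i f x)) := by ring
      _ = h x * (edgeW n β g i x * (f x - f (flipAt i x))) := by rw [this]
      _ = edgeW n β g i x * (h x * (f x - f (flipAt i x))) := by ring
  rw [h0]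
  unfold dir2
  rw [Finset.mul_sum]
  apply Finset.sum_congr rfl
  intro i _
  have h1 : ∑ x : Fin n → Bool, edgeW n β g i x * (h x * (f x - f (flipAt i x))) =
      ∑ x : Fin n → Bool, edgeW n β g i x * (h (flipAt i x) * (f (flipAt i x) - f x)) := by
    rw [← sum_flipAt (fun x => edgeW n β g i x * (h x * (f x - f (flipAt i x)))) i]
    apply Finset.sum_congr rfl
    intro x _
    rw [edgeW_flip, flipAt_invol i x]
  have h2 : ∑ x : Fin n → Bool,
      edgeW n β g i x * ((f x - f (flipAt i x)) * (h x - h (flipAt i x))) =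
      ∑ x : Fin n → Bool, edgeW n β g i x * (h x * (f x - f (flipAt i x))) +
      ∑ x : Fin n → Bool, edgeW n β g i x * (h (flipAt i x) * (f (flipAt i x) - f x)) := by
    rw [← Finset.sum_add_distrib]
    apply Finset.sum_congr rfl
    intro x _
    ring
  rw [h2, ← h1]
  ring

/-- covariance under the Gibbs measure -/
noncomputable def cov (n : ℕ) (β : ℝ) (g : Fin n → Fin n → ℝ)
    (f h : (Fin n → Bool) → ℝ) : ℝ :=
  expect n β g (fun x => (f x - expect n β g f) * (h x - expect n β g h))

lemma expect_add_smul (f h : (Fin n → Bool) → ℝ) (ε : ℝ) :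
    expect n β g (fun x => f x + ε * h x) = expect n β g f + ε * expect n β g h := by
  unfold expect
  rw [Finset.mul_sum, ← Finset.sum_add_distrib]
  apply Finset.sum_congr rfl
  intro x _
  ring

lemma variance_add_smul (f h : (Fin n → Bool) → ℝ) (ε : ℝ) :
    variance n β g (fun x => f x + ε * h x) =
      variance n β g f + 2 * ε * cov n β g f h + ε ^ 2 * variance n β g h := by
  unfold variance cov
  rw [expect_add_smul]
  generalize expect n β g f = a
  generalize expect n β g h = b
  unfold expect
  beta_reduce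
  have key : ∀ x : Fin n → Bool, gibbs n β g x * (f x + ε * h x - (a + ε * b)) ^ 2 =
      gibbs n β g x * (f x - a) ^ 2 + 2 * ε * (gibbs n β g x * ((f x - a) * (h x - b))) +
        ε ^ 2 * (gibbs n β g x * (h x - b) ^ 2) := by
    intro x; ring
  rw [Finset.sum_congr rfl (fun x _ => key x), Finset.sum_add_distrib, Finset.sum_add_distrib,
    ← Finset.mul_sum, ← Finset.mul_sum]

lemma dir2_add_smul (f h : (Fin n → Bool) → ℝ) (ε : ℝ) :
    dir2 n β g (fun x => f x + ε * h x) (fun x => f x + ε * h x) =
      dir2 n β g f f + 2 * ε * dir2 n β g f h + ε ^ 2 * dir2 n β g h h := by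
  unfold dir2
  beta_reduce
  have key : ∀ (i : Fin n) (x : Fin n → Bool),
      edgeW n β g i x * ((f x + ε * h x - (f (flipAt i x) + ε * h (flipAt i x))) *
        (f x + ε * h x - (f (flipAt i x) + ε * h (flipAt i x)))) =
      edgeW n β g i x * ((f x - f (flipAt i x)) * (f x - f (flipAt i x))) +
        2 * ε * (edgeW n β g i x * ((f x - f (flipAt i x)) * (h x - h (flipAt i x)))) +
        ε ^ 2 * (edgeW n β g i x * ((h x - h (flipAt i x)) * (h x - h (flipAt i x)))) := by
    intro i x; ring
  have key2 : ∀ i : Fin n, ∑ x : Fin n → Bool,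
      edgeW n β g i x * ((f x + ε * h x - (f (flipAt i x) + ε * h (flipAt i x))) *
        (f x + ε * h x - (f (flipAt i x) + ε * h (flipAt i x)))) =
      ∑ x : Fin n → Bool, edgeW n β g i x * ((f x - f (flipAt i x)) * (f x - f (flipAt i x))) +
        2 * ε * ∑ x : Fin n → Bool,
          edgeW n β g i x * ((f x - f (flipAt i x)) * (h x - h (flipAt i x))) +
        ε ^ 2 * ∑ x : Fin n → Bool,
          edgeW n β g i x * ((h x - h (flipAt i x)) * (h x - h (flipAt i x))) := by
    intro i
    rw [Finset.sum_congr rfl (fun x _ => key i x), Finset.sum_add_distrib, Finset.sum_add_distrib,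
      ← Finset.mul_sum, ← Finset.mul_sum]
  rw [Finset.sum_congr rfl (fun i _ => key2 i), Finset.sum_add_distrib, Finset.sum_add_distrib,
    ← Finset.mul_sum, ← Finset.mul_sum]
  ring

lemma quad_nonneg_lin_zero (B C : ℝ) (h : ∀ ε : ℝ, 0 ≤ 2 * ε * B + ε ^ 2 * C) : B = 0 := by
  by_contra hB
  have hC : 0 < |C| + 1 := by positivity
  have h1 := h (-B / (|C| + 1))
  have h2 : 2 * (-B / (|C| + 1)) * B + (-B / (|C| + 1)) ^ 2 * C =
      (B ^ 2 / (|C| + 1) ^ 2) * (C - 2 * (|C| + 1)) := by
    field_simp
    ring
  rw [h2] at h1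
  have h3 : 0 < B ^ 2 / (|C| + 1) ^ 2 := by positivity
  have h4 : C - 2 * (|C| + 1) < 0 := by
    have := le_abs_self C
    linarith [abs_nonneg C]
  have := mul_neg_of_pos_of_neg h3 h4
  linarith

/-- mean-zero observables of unit second moment -/
def sphere (n : ℕ) (β : ℝ) (g : Fin n → Fin n → ℝ) : Set ((Fin n → Bool) → ℝ) :=
  {f | expect n β g f = 0 ∧ expect n β g (fun x => f x ^ 2) = 1}

lemma continuous_expect : Continuous (fun f : (Fin n → Bool) → ℝ => expect n β g f) := by
  unfold expect
  exact continuous_finsetSum _ (fun x _ => continuous_const.mul (continuous_apply x))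

lemma continuous_expect_sq :
    Continuous (fun f : (Fin n → Bool) → ℝ => expect n β g (fun x => f x ^ 2)) := by
  unfold expect
  exact continuous_finsetSum _ (fun x _ => continuous_const.mul ((continuous_apply x).pow 2))

lemma continuous_dirichlet :
    Continuous (fun f : (Fin n → Bool) → ℝ => dirichlet n β g f) := by
  have h : (fun f : (Fin n → Bool) → ℝ => dirichlet n β g f) =
      fun f => (1 / 2) * ∑ i : Fin n, ∑ x : Fin n → Bool,
        edgeW n β g i x * (f x - f (flipAt i x)) ^ 2 := by
    funext f; exact dirichlet_eq f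
  rw [h]
  refine continuous_const.mul (continuous_finsetSum _ (fun i _ => ?_))
  refine continuous_finsetSum _ (fun x _ => ?_)
  exact continuous_const.mul (((continuous_apply x).sub (continuous_apply (flipAt i x))).pow 2)

lemma isClosed_sphere : IsClosed (sphere n β g) := by
  have h1 : IsClosed {f : (Fin n → Bool) → ℝ | expect n β g f = 0} :=
    isClosed_eq continuous_expect continuous_const
  have h2 : IsClosed {f : (Fin n → Bool) → ℝ | expect n β g (fun x => f x ^ 2) = 1} :=
    isClosed_eq continuous_expect_sq continuous_const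
  exact h1.inter h2

lemma isBounded_sphere : Bornology.IsBounded (sphere n β g) := by
  rw [isBounded_iff_forall_norm_le]
  refine ⟨1 + ∑ y : Fin n → Bool, 1 / gibbs n β g y, ?_⟩
  intro f hf
  have hC : 0 ≤ 1 + ∑ y : Fin n → Bool, 1 / gibbs n β g y := by
    have : 0 ≤ ∑ y : Fin n → Bool, 1 / gibbs n β g y :=
      Finset.sum_nonneg (fun y _ => (one_div_pos.mpr (gibbs_pos y)).le)
    linarith
  rw [pi_norm_le_iff_of_nonneg hC]
  intro x
  have hx := gibbs_pos (n := n) (β := β) (g := g) x
  have h1 : gibbs n β g x * f x ^ 2 ≤ 1 := by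
    rw [← hf.2]
    unfold expect
    exact Finset.single_le_sum (f := fun y => gibbs n β g y * f y ^ 2)
      (fun y _ => mul_nonneg (gibbs_pos y).le (sq_nonneg _)) (Finset.mem_univ x)
  have h2 : f x ^ 2 ≤ 1 / gibbs n β g x := by
    rw [le_div_iff₀ hx]; linarith
  have h3 : 1 / gibbs n β g x ≤ ∑ y : Fin n → Bool, 1 / gibbs n β g y :=
    Finset.single_le_sum (f := fun y => 1 / gibbs n β g y)
      (fun y _ => (one_div_pos.mpr (gibbs_pos y)).le) (Finset.mem_univ x)
  rw [Real.norm_eq_abs]
  have h4 : |f x| ≤ 1 + f x ^ 2 := by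
    have := sq_abs (f x)
    nlinarith [abs_nonneg (f x), sq_nonneg (|f x| - 1)]
  linarith

lemma isCompact_sphere : IsCompact (sphere n β g) :=
  Metric.isCompact_of_isClosed_isBounded isClosed_sphere isBounded_sphere

lemma expect_const_one : expect n β g (fun _ => (1 : ℝ)) = 1 := by
  unfold expect
  simp [sum_gibbs]

lemma sphere_nonempty (hn : 0 < n) : (sphere n β g).Nonempty := by
  refine ⟨linv (fun j => if j = (⟨0, hn⟩ : Fin n) then 1 else 0), expect_linv _, ?_⟩
  have h : ∀ x : Fin n → Bool,
      linv (fun j => if j = (⟨0, hn⟩ : Fin n) then (1 : ℝ) else 0) x ^ 2 = 1 := by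
    intro x
    unfold linv
    simp only [ite_mul, one_mul, zero_mul, Finset.sum_ite_eq', Finset.mem_univ, if_true]
    rw [sq]; exact spin_mul_self _
  simp only [h]
  exact expect_const_one

lemma variance_of_mem_sphere {f : (Fin n → Bool) → ℝ} (hf : f ∈ sphere n β g) :
    variance n β g f = 1 := by
  unfold variance
  rw [hf.1]
  simp only [sub_zero]
  exact hf.2

/-- normalisation of an observable of non-zero variance -/
lemma exists_normalised (f : (Fin n → Bool) → ℝ) (hv : variance n β g f ≠ 0) :
    ∃ f' ∈ sphere n β g, dirichlet n β g f' = dirichlet n β g f / variance n β g f := by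
  have hpos : 0 < variance n β g f := lt_of_le_of_ne (variance_nonneg f) (Ne.symm hv)
  set a := expect n β g f with ha
  set c := Real.sqrt (variance n β g f) with hc
  have hcpos : 0 < c := Real.sqrt_pos.mpr hpos
  have hc2 : c ^ 2 = variance n β g f := Real.sq_sqrt hpos.le
  refine ⟨fun x => (f x - a) / c, ⟨?_, ?_⟩, ?_⟩
  · have : expect n β g (fun x => (f x - a) / c) = (expect n β g f - a) / c := by
      unfold expect
      have key : ∀ x : Fin n → Bool, gibbs n β g x * ((f x - a) / c) =
          (gibbs n β g x * f x - a * gibbs n β g x) / c := by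
        intro x; ring
      rw [Finset.sum_congr rfl (fun x _ => key x), ← Finset.sum_div, Finset.sum_sub_distrib,
        ← Finset.mul_sum, sum_gibbs, mul_one]
    rw [this, ← ha, sub_self, zero_div]
  · have : expect n β g (fun x => ((f x - a) / c) ^ 2) = variance n β g f / c ^ 2 := by
      unfold variance
      rw [← ha]
      unfold expect
      beta_reduce
      have key : ∀ x : Fin n → Bool, gibbs n β g x * ((f x - a) / c) ^ 2 =
          gibbs n β g x * (f x - a) ^ 2 / c ^ 2 := by
        intro x; ring
      rw [Finset.sum_congr rfl (fun x _ => key x), ← Finset.sum_div]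
    rw [this, hc2, div_self hv]
  · rw [dirichlet_eq, dirichlet_eq, ← hc2]
    have key : ∀ (i : Fin n) (x : Fin n → Bool),
        edgeW n β g i x * ((f x - a) / c - (f (flipAt i x) - a) / c) ^ 2 =
        edgeW n β g i x * (f x - f (flipAt i x)) ^ 2 / c ^ 2 := by
      intro i x; field_simp; ring
    have key2 : ∀ i : Fin n, ∑ x : Fin n → Bool,
        edgeW n β g i x * ((f x - a) / c - (f (flipAt i x) - a) / c) ^ 2 =
        (∑ x : Fin n → Bool, edgeW n β g i x * (f x - f (flipAt i x)) ^ 2) / c ^ 2 := by
      intro i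
      rw [Finset.sum_congr rfl (fun x _ => key i x), ← Finset.sum_div]
    rw [Finset.sum_congr rfl (fun i _ => key2 i), ← Finset.sum_div]
    ring

/-- an eigenfunction of the generator for the eigenvalue `-gap`, of mean zero and not zero -/
theorem exists_eigenfunction (hn : 0 < n) : ∃ f₀ : (Fin n → Bool) → ℝ,
    expect n β g f₀ = 0 ∧ (∃ x, f₀ x ≠ 0) ∧
    ∀ x, generator n β g f₀ x = -(gap n β g) * f₀ x := by
  obtain ⟨f₀, hf₀, hmin⟩ := isCompact_sphere.exists_isMinOn (sphere_nonempty (β := β) (g := g) hn)
    (continuous_dirichlet (n := n) (β := β) (g := g)).continuousOn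
  have hvar : variance n β g f₀ = 1 := variance_of_mem_sphere hf₀
  have hgap : gap n β g = dirichlet n β g f₀ := by
    apply le_antisymm
    · have hbdd : BddBelow {r : ℝ | ∃ f : (Fin n → Bool) → ℝ,
          variance n β g f ≠ 0 ∧ r = dirichlet n β g f / variance n β g f} := by
        refine ⟨0, ?_⟩
        rintro r ⟨f', _, rfl⟩
        exact div_nonneg (dirichlet_nonneg f') (variance_nonneg f')
      have : gap n β g ≤ dirichlet n β g f₀ / variance n β g f₀ :=
        csInf_le hbdd ⟨f₀, by rw [hvar]; norm_num, rfl⟩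
      rwa [hvar, div_one] at this
    · apply le_csInf
      · exact ⟨_, f₀, by rw [hvar]; norm_num, rfl⟩
      · rintro r ⟨f, hv, rfl⟩
        obtain ⟨f', hf', hd⟩ := exists_normalised f hv
        rw [← hd]
        exact hmin hf'
  have hcross : ∀ h : (Fin n → Bool) → ℝ,
      dir2 n β g f₀ h - gap n β g * cov n β g f₀ h = 0 := by
    intro h
    apply quad_nonneg_lin_zero _ (dir2 n β g h h - gap n β g * variance n β g h)
    intro ε
    have h1 := gap_mul_variance_le (n := n) (β := β) (g := g) (fun x => f₀ x + ε * h x)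
    rw [dirichlet_eq_dir2, dir2_add_smul, variance_add_smul, ← dirichlet_eq_dir2, ← hgap, hvar] at h1
    linarith
  refine ⟨f₀, hf₀.1, ?_, ?_⟩
  · by_contra hzero0
    have hzero : ∀ x, f₀ x = 0 := fun x => by_contra (fun hx => hzero0 ⟨x, hx⟩)
    have : expect n β g (fun x => f₀ x ^ 2) = 0 := by
      unfold expect
      apply Finset.sum_eq_zero
      intro x _
      show gibbs n β g x * f₀ x ^ 2 = 0
      rw [hzero x]; ring
    rw [hf₀.2] at this
    exact one_ne_zero this
  · intro x₀
    have h1 := hcross (fun x => if x = x₀ then 1 else 0)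
    rw [← expect_mul_generator] at h1
    have h2 : expect n β g (fun x => (if x = x₀ then (1 : ℝ) else 0) * -generator n β g f₀ x) =
        gibbs n β g x₀ * -generator n β g f₀ x₀ := by
      unfold expect
      simp
    have h3 : cov n β g f₀ (fun x => if x = x₀ then 1 else 0) = gibbs n β g x₀ * f₀ x₀ := by
      unfold cov
      rw [hf₀.1]
      generalize expect n β g (fun x => if x = x₀ then (1 : ℝ) else 0) = b
      have h4 : expect n β g (fun x => (f₀ x - 0) * ((if x = x₀ then (1 : ℝ) else 0) - b)) =
          expect n β g (fun x => (if x = x₀ then (1 : ℝ) else 0) * f₀ x) - b * expect n β g f₀ := by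
        unfold expect
        rw [Finset.mul_sum, ← Finset.sum_sub_distrib]
        apply Finset.sum_congr rfl
        intro x _
        ring
      rw [h4, hf₀.1]
      unfold expect
      simp
    rw [h2, h3] at h1
    have hx := gibbs_pos (n := n) (β := β) (g := g) x₀
    have h5 : gibbs n β g x₀ * (-generator n β g f₀ x₀ - gap n β g * f₀ x₀) = 0 := by
      linarith
    rcases mul_eq_zero.mp h5 with h6 | h6
    · exact absurd h6 hx.ne'
    · linarith

end Vale.Agent.Lib.P150
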