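import Vale.Agent.Lib.P150.Defs

namespace Vale.Agent.Lib.P150

/-- The matrix of the generator L: its entry (x, y) is the value at x of L applied to the
indicator function of y. -/
noncomputable def genMatrix (n : ℕ) (β : ℝ) (g : Fin n → Fin n → ℝ) :
    Matrix (Fin n → Bool) (Fin n → Bool) ℝ :=
  fun x y => generator n β g (fun z => if z = y then 1 else 0) x

/-- The transition kernel P_t = exp(t L) of the continuous-time heat-bath dynamics. -/
noncomputable def kernel (n : ℕ) (β : ℝ) (g : Fin n → Fin n → ℝ) (t : ℝ) :
    Matrix (Fin n → Bool) (Fin n → Bool) ℝ :=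
  NormedSpace.exp (t • genMatrix n β g)

/-- The total variation distance between P_t(x, ·) and the Gibbs measure μ. -/
noncomputable def tvDist (n : ℕ) (β : ℝ) (g : Fin n → Fin n → ℝ) (t : ℝ)
    (x : Fin n → Bool) : ℝ :=
  (1 / 2) * ∑ y : Fin n → Bool, |kernel n β g t x y - gibbs n β g y|

end Vale.Agent.Lib.P150
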