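import Vale.Agent.Lib.P150.MixDefs
import Vale.Agent.Lib.P150.Eigen

namespace Vale.Agent.Lib.P150

open Finset

variable {n : ℕ} {β : ℝ} {g : Fin n → Fin n → ℝ}

lemma condExp_eq_sum (i : Fin n) (f : (Fin n → Bool) → ℝ) (x : Fin n → Bool) :
    condExp n β g i f x =
      ∑ y : Fin n → Bool, condExp n β g i (fun z => if z = y then 1 else 0) x * f y := by
  unfold condExp
  simp_rw [div_mul_eq_mul_div]
  rw [← Finset.sum_div]
  congr 1
  simp_rw [Finset.sum_mul]
  rw [Finset.sum_comm]
  apply Finset.sum_congr rfl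
  intro b _
  simp

lemma mulVec_genMatrix (f : (Fin n → Bool) → ℝ) :
    (genMatrix n β g).mulVec f = generator n β g f := by
  funext x
  unfold Matrix.mulVec genMatrix generator
  simp only [dotProduct]
  simp_rw [Finset.sum_mul]
  rw [Finset.sum_comm]
  apply Finset.sum_congr rfl
  intro i _
  simp_rw [sub_mul]
  rw [Finset.sum_sub_distrib, ← condExp_eq_sum]
  simp

lemma pow_mulVec_eigen {S : Type*} [Fintype S] [DecidableEq S] (A : Matrix S S ℝ) (f : S → ℝ)
    (a : ℝ) (h : A.mulVec f = a • f) (k : ℕ) : (A ^ k).mulVec f = a ^ k • f := by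
  induction k with
  | zero => simp
  | succ k ih =>
    rw [pow_succ, ← Matrix.mulVec_mulVec, h, Matrix.mulVec_smul, ih, smul_smul, pow_succ]
    ring_nf

open scoped Matrix.Norms.Operator in
lemma exp_mulVec_eigen {S : Type*} [Fintype S] [DecidableEq S] (A : Matrix S S ℝ) (f : S → ℝ)
    (a : ℝ) (h : A.mulVec f = a • f) : (NormedSpace.exp A).mulVec f = Real.exp a • f := by
  have h1 : HasSum (fun k : ℕ => ((k.factorial : ℝ)⁻¹ • A ^ k)) (NormedSpace.exp A) :=
    NormedSpace.exp_series_hasSum_exp' (𝕂 := ℝ) A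
  have hc : Continuous (fun M : Matrix S S ℝ => M.mulVec f) :=
    Continuous.matrix_mulVec continuous_id continuous_const
  have h2 : HasSum (fun k : ℕ => ((k.factorial : ℝ)⁻¹ • A ^ k).mulVec f)
      ((NormedSpace.exp A).mulVec f) :=
    h1.map (Matrix.mulVec.addMonoidHomLeft f) hc
  have h3 : HasSum (fun k : ℕ => ((k.factorial : ℝ)⁻¹ • a ^ k) • f) (NormedSpace.exp a • f) :=
    (NormedSpace.exp_series_hasSum_exp' (𝕂 := ℝ) a).smul_const f
  have h4 : (fun k : ℕ => ((k.factorial : ℝ)⁻¹ • A ^ k).mulVec f) =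
      fun k : ℕ => ((k.factorial : ℝ)⁻¹ • a ^ k) • f := by
    funext k
    rw [Matrix.smul_mulVec, pow_mulVec_eigen A f a h k, smul_smul, smul_eq_mul]
  rw [h4] at h2
  rw [Real.exp_eq_exp_ℝ]
  exact h2.unique h3

lemma overlapSq_nonneg : 0 ≤ overlapSq n β g := by
  unfold overlapSq
  apply Finset.sum_nonneg
  intro x _
  apply Finset.sum_nonneg
  intro y _
  exact mul_nonneg (mul_nonneg (gibbs_pos x).le (gibbs_pos y).le) (sq_nonneg _)

/-- If the chain is within total variation 1/4 of equilibrium from every start at time t,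
then t is at least log 2 over the gap, and at least log 2 times n E[R^2]. -/
theorem mixing_lower_bound (hn : 0 < n) (t : ℝ) (ht : 0 ≤ t)
    (hmix : ∀ x : Fin n → Bool, tvDist n β g t x ≤ 1 / 4) :
    Real.log 2 ≤ gap n β g * t ∧ Real.log 2 * ((n : ℝ) * overlapSq n β g) ≤ t := by
  obtain ⟨f₀, hmean, hne, heig⟩ := exists_eigenfunction (β := β) (g := g) hn
  have hA : (t • genMatrix n β g).mulVec f₀ = (-(gap n β g) * t) • f₀ := by
    rw [Matrix.smul_mulVec, mulVec_genMatrix]
    funext x
    simp only [Pi.smul_apply, smul_eq_mul]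
    rw [heig x]
    ring
  have hexp := exp_mulVec_eigen _ f₀ _ hA
  obtain ⟨xs, -, hxs⟩ := Finset.exists_max_image (Finset.univ : Finset (Fin n → Bool))
    (fun x => |f₀ x|) Finset.univ_nonempty
  have hM : 0 < |f₀ xs| := by
    obtain ⟨x, hx⟩ := hne
    exact lt_of_lt_of_le (abs_pos.mpr hx) (hxs x (Finset.mem_univ x))
  have hpt : Real.exp (-(gap n β g) * t) * f₀ xs =
      ∑ y : Fin n → Bool, (kernel n β g t xs y - gibbs n β g y) * f₀ y := by
    have h1 := congrFun hexp xs
    simp only [Pi.smul_apply, smul_eq_mul] at h1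
    rw [← h1]
    unfold kernel Matrix.mulVec
    simp only [dotProduct]
    have h2 : ∑ y : Fin n → Bool, gibbs n β g y * f₀ y = 0 := hmean
    simp_rw [sub_mul]
    rw [Finset.sum_sub_distrib, h2, sub_zero]
  have hbound : Real.exp (-(gap n β g) * t) * |f₀ xs| ≤ (1 / 2) * |f₀ xs| := by
    calc Real.exp (-(gap n β g) * t) * |f₀ xs|
        = |Real.exp (-(gap n β g) * t) * f₀ xs| := by
          rw [abs_mul, abs_of_pos (Real.exp_pos _)]
      _ = |∑ y : Fin n → Bool, (kernel n β g t xs y - gibbs n β g y) * f₀ y| := by rw [hpt]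
      _ ≤ ∑ y : Fin n → Bool, |(kernel n β g t xs y - gibbs n β g y) * f₀ y| :=
          Finset.abs_sum_le_sum_abs _ _
      _ ≤ ∑ y : Fin n → Bool, |kernel n β g t xs y - gibbs n β g y| * |f₀ xs| := by
          apply Finset.sum_le_sum
          intro y _
          rw [abs_mul]
          exact mul_le_mul_of_nonneg_left (hxs y (Finset.mem_univ y)) (abs_nonneg _)
      _ = 2 * tvDist n β g t xs * |f₀ xs| := by
          unfold tvDist
          rw [← Finset.sum_mul]
          ring
      _ ≤ (1 / 2) * |f₀ xs| := by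
          have := hmix xs
          nlinarith
  have hexp_le : Real.exp (-(gap n β g) * t) ≤ 1 / 2 := le_of_mul_le_mul_right hbound hM
  have hlog : -(gap n β g) * t ≤ Real.log (1 / 2) :=
    (Real.le_log_iff_exp_le (by norm_num)).mpr hexp_le
  have hlog2 : Real.log (1 / 2) = -Real.log 2 := by
    rw [one_div, Real.log_inv]
  have hfirst : Real.log 2 ≤ gap n β g * t := by linarith
  refine ⟨hfirst, ?_⟩
  have hov : 0 ≤ (n : ℝ) * overlapSq n β g :=
    mul_nonneg (Nat.cast_nonneg n) overlapSq_nonneg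
  have hgo := gap_overlap_bound (β := β) (g := g) hn
  calc Real.log 2 * ((n : ℝ) * overlapSq n β g)
      ≤ gap n β g * t * ((n : ℝ) * overlapSq n β g) := mul_le_mul_of_nonneg_right hfirst hov
    _ = t * (gap n β g * ((n : ℝ) * overlapSq n β g)) := by ring
    _ ≤ t * 1 := mul_le_mul_of_nonneg_left hgo ht
    _ = t := mul_one t

end Vale.Agent.Lib.P150
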