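import Vale.Agent.Lib.P150.Defs

namespace Vale.Agent.Lib.P150

open Finset

variable {n : ℕ} {β : ℝ} {g : Fin n → Fin n → ℝ}

lemma spin_not (b : Bool) : spin (!b) = -spin b := by cases b <;> simp [spin]

lemma spin_mul_self (b : Bool) : spin b * spin b = 1 := by cases b <;> simp [spin]

lemma partitionFn_pos : 0 < partitionFn n β g := by
  unfold partitionFn
  exact Finset.sum_pos (fun x _ => Real.exp_pos _) Finset.univ_nonempty

lemma gibbs_pos (x : Fin n → Bool) : 0 < gibbs n β g x :=
  div_pos (Real.exp_pos _) partitionFn_pos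

lemma sum_gibbs : ∑ x : Fin n → Bool, gibbs n β g x = 1 := by
  unfold gibbs
  rw [← Finset.sum_div]
  exact div_self (partitionFn_pos (n := n) (β := β) (g := g)).ne'

/-- global spin flip -/
def negAll (x : Fin n → Bool) : Fin n → Bool := fun i => !x i

lemma negAll_invol : Function.Involutive (negAll (n := n)) := by
  intro x; funext i; simp [negAll]

lemma hamiltonian_negAll (x : Fin n → Bool) :
    hamiltonian n β g (negAll x) = hamiltonian n β g x := by
  unfold hamiltonian negAll
  simp [spin_not]

lemma gibbs_negAll (x : Fin n → Bool) : gibbs n β g (negAll x) = gibbs n β g x := by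
  unfold gibbs; rw [hamiltonian_negAll]

/-- single spin flip -/
def flipAt (i : Fin n) (x : Fin n → Bool) : Fin n → Bool := Function.update x i (!x i)

lemma flipAt_invol (i : Fin n) : Function.Involutive (flipAt i) := by
  intro x
  unfold flipAt
  simp

lemma sum_flipAt (F : (Fin n → Bool) → ℝ) (i : Fin n) :
    ∑ x : Fin n → Bool, F (flipAt i x) = ∑ x : Fin n → Bool, F x :=
  Equiv.sum_comp (Function.Involutive.toPerm _ (flipAt_invol i)) F

lemma sum_negAll (F : (Fin n → Bool) → ℝ) :
    ∑ x : Fin n → Bool, F (negAll x) = ∑ x : Fin n → Bool, F x :=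
  Equiv.sum_comp (Function.Involutive.toPerm _ negAll_invol) F

lemma sum_bool_update (F : (Fin n → Bool) → ℝ) (i : Fin n) (x : Fin n → Bool) :
    ∑ b : Bool, F (Function.update x i b) = F x + F (flipAt i x) := by
  rw [Fintype.sum_bool]
  unfold flipAt
  cases h : x i
  · have h1 : Function.update x i false = x := by
      rw [← h]; exact Function.update_eq_self i x
    rw [h1]; simp [add_comm]
  · have h1 : Function.update x i true = x := by
      rw [← h]; exact Function.update_eq_self i x
    rw [h1]; simp

/-- symmetric edge weight of the heat-bath dynamics -/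
noncomputable def edgeW (n : ℕ) (β : ℝ) (g : Fin n → Fin n → ℝ) (i : Fin n)
    (x : Fin n → Bool) : ℝ :=
  gibbs n β g x * gibbs n β g (flipAt i x) / (gibbs n β g x + gibbs n β g (flipAt i x))

lemma edgeW_flip (i : Fin n) (x : Fin n → Bool) :
    edgeW n β g i (flipAt i x) = edgeW n β g i x := by
  unfold edgeW
  rw [flipAt_invol i x, mul_comm, add_comm]

lemma edgeW_nonneg (i : Fin n) (x : Fin n → Bool) : 0 ≤ edgeW n β g i x := by
  unfold edgeW
  have h1 := gibbs_pos (n := n) (β := β) (g := g) x
  have h2 := gibbs_pos (n := n) (β := β) (g := g) (flipAt i x)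
  positivity

lemma edgeW_le (i : Fin n) (x : Fin n → Bool) :
    edgeW n β g i x ≤ (gibbs n β g x + gibbs n β g (flipAt i x)) / 4 := by
  unfold edgeW
  have h1 := gibbs_pos (n := n) (β := β) (g := g) x
  have h2 := gibbs_pos (n := n) (β := β) (g := g) (flipAt i x)
  rw [div_le_iff₀ (by positivity)]
  nlinarith [sq_nonneg (gibbs n β g x - gibbs n β g (flipAt i x))]

lemma sub_condExp (i : Fin n) (f : (Fin n → Bool) → ℝ) (x : Fin n → Bool) :
    gibbs n β g x * (f x * (f x - condExp n β g i f x)) =
      edgeW n β g i x * (f x * (f x - f (flipAt i x))) := by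
  unfold condExp edgeW
  rw [sum_bool_update (fun z => gibbs n β g z * f z) i x, sum_bool_update (fun z => gibbs n β g z) i x]
  have h1 := gibbs_pos (n := n) (β := β) (g := g) x
  have h2 := gibbs_pos (n := n) (β := β) (g := g) (flipAt i x)
  have h3 : gibbs n β g x + gibbs n β g (flipAt i x) ≠ 0 := by positivity
  field_simp
  ring

lemma dirichlet_eq (f : (Fin n → Bool) → ℝ) :
    dirichlet n β g f =
      (1 / 2) * ∑ i : Fin n, ∑ x : Fin n → Bool,
        edgeW n β g i x * (f x - f (flipAt i x)) ^ 2 := by
  have h0 : dirichlet n β g f =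
      ∑ i : Fin n, ∑ x : Fin n → Bool, edgeW n β g i x * (f x * (f x - f (flipAt i x))) := by
    unfold dirichlet expect generator
    rw [Finset.sum_comm]
    apply Finset.sum_congr rfl
    intro x _
    have hneg : -∑ i : Fin n, (condExp n β g i f x - f x) =
        ∑ i : Fin n, (f x - condExp n β g i f x) := by
      rw [← Finset.sum_neg_distrib]
      apply Finset.sum_congr rfl
      intro i _
      ring
    dsimp only
    rw [hneg, Finset.mul_sum, Finset.mul_sum]
    apply Finset.sum_congr rfl
    intro i _
    rw [sub_condExp]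
  rw [h0, Finset.mul_sum]
  apply Finset.sum_congr rfl
  intro i _
  have h1 : ∑ x : Fin n → Bool, edgeW n β g i x * (f x * (f x - f (flipAt i x))) =
      ∑ x : Fin n → Bool, edgeW n β g i x * (f (flipAt i x) * (f (flipAt i x) - f x)) := by
    rw [← sum_flipAt (fun x => edgeW n β g i x * (f x * (f x - f (flipAt i x)))) i]
    apply Finset.sum_congr rfl
    intro x _
    rw [edgeW_flip, flipAt_invol i x]
  have h2 : ∑ x : Fin n → Bool, edgeW n β g i x * (f x - f (flipAt i x)) ^ 2 =
      ∑ x : Fin n → Bool, edgeW n β g i x * (f x * (f x - f (flipAt i x))) +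
      ∑ x : Fin n → Bool, edgeW n β g i x * (f (flipAt i x) * (f (flipAt i x) - f x)) := by
    rw [← Finset.sum_add_distrib]
    apply Finset.sum_congr rfl
    intro x _
    ring
  rw [h2, ← h1]
  ring

lemma dirichlet_nonneg (f : (Fin n → Bool) → ℝ) : 0 ≤ dirichlet n β g f := by
  rw [dirichlet_eq]
  apply mul_nonneg (by norm_num)
  apply Finset.sum_nonneg
  intro i _
  apply Finset.sum_nonneg
  intro x _
  exact mul_nonneg (edgeW_nonneg i x) (sq_nonneg _)

lemma variance_nonneg (f : (Fin n → Bool) → ℝ) : 0 ≤ variance n β g f := by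
  unfold variance expect
  apply Finset.sum_nonneg
  intro x _
  exact mul_nonneg (gibbs_pos x).le (sq_nonneg _)

/-- The Poincare inequality with constant `gap`. -/
lemma gap_mul_variance_le (f : (Fin n → Bool) → ℝ) :
    gap n β g * variance n β g f ≤ dirichlet n β g f := by
  by_cases hv : variance n β g f = 0
  · rw [hv, mul_zero]; exact dirichlet_nonneg f
  · have hpos : 0 < variance n β g f := lt_of_le_of_ne (variance_nonneg f) (Ne.symm hv)
    have hbdd : BddBelow {r : ℝ | ∃ f : (Fin n → Bool) → ℝ,
        variance n β g f ≠ 0 ∧ r = dirichlet n β g f / variance n β g f} := by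
      refine ⟨0, ?_⟩
      rintro r ⟨f', _, rfl⟩
      exact div_nonneg (dirichlet_nonneg f') (variance_nonneg f')
    have hle : gap n β g ≤ dirichlet n β g f / variance n β g f :=
      csInf_le hbdd ⟨f, hv, rfl⟩
    exact (le_div_iff₀ hpos).mp hle

/-- the linear observable x ↦ Σ_i v_i x_i -/
noncomputable def linv (v : Fin n → ℝ) (x : Fin n → Bool) : ℝ :=
  ∑ i : Fin n, v i * spin (x i)

lemma linv_negAll (v : Fin n → ℝ) (x : Fin n → Bool) : linv v (negAll x) = -linv v x := by
  unfold linv negAll
  simp [spin_not, Finset.sum_neg_distrib]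

lemma linv_flipAt (v : Fin n → ℝ) (i : Fin n) (x : Fin n → Bool) :
    linv v (flipAt i x) = linv v x - 2 * (v i * spin (x i)) := by
  unfold linv
  have h : ∀ j : Fin n, v j * spin (flipAt i x j) =
      v j * spin (x j) - (if j = i then 2 * (v i * spin (x i)) else 0) := by
    intro j
    by_cases hj : j = i
    · subst hj
      simp [flipAt, spin_not]
      ring
    · simp [flipAt, hj]
  rw [Finset.sum_congr rfl (fun j _ => h j), Finset.sum_sub_distrib]
  simp

lemma expect_linv (v : Fin n → ℝ) : expect n β g (linv v) = 0 := by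
  have h : ∑ x : Fin n → Bool, gibbs n β g x * linv v x =
      -∑ x : Fin n → Bool, gibbs n β g x * linv v x := by
    calc ∑ x : Fin n → Bool, gibbs n β g x * linv v x
        = ∑ x : Fin n → Bool, gibbs n β g (negAll x) * linv v (negAll x) :=
          (sum_negAll (fun x => gibbs n β g x * linv v x)).symm
      _ = ∑ x : Fin n → Bool, -(gibbs n β g x * linv v x) := by
          apply Finset.sum_congr rfl
          intro x _
          rw [gibbs_negAll, linv_negAll]
          ring
      _ = -∑ x : Fin n → Bool, gibbs n β g x * linv v x := Finset.sum_neg_distrib _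
  unfold expect
  linarith

lemma variance_linv (v : Fin n → ℝ) :
    variance n β g (linv v) = ∑ x : Fin n → Bool, gibbs n β g x * (linv v x) ^ 2 := by
  unfold variance
  rw [expect_linv]
  unfold expect
  simp

lemma variance_linv_corr (v : Fin n → ℝ) :
    variance n β g (linv v) =
      ∑ i : Fin n, ∑ j : Fin n,
        v i * v j * expect n β g (fun x => spin (x i) * spin (x j)) := by
  rw [variance_linv]
  unfold expect
  have h : ∀ x : Fin n → Bool, gibbs n β g x * (linv v x) ^ 2 =
      ∑ i : Fin n, ∑ j : Fin n, v i * v j * (gibbs n β g x * (spin (x i) * spin (x j))) := by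
    intro x
    unfold linv
    rw [sq, Finset.sum_mul_sum, Finset.mul_sum]
    apply Finset.sum_congr rfl
    intro i _
    rw [Finset.mul_sum]
    apply Finset.sum_congr rfl
    intro j _
    ring
  rw [Finset.sum_congr rfl (fun x _ => h x), Finset.sum_comm]
  apply Finset.sum_congr rfl
  intro i _
  rw [Finset.sum_comm]
  apply Finset.sum_congr rfl
  intro j _
  rw [Finset.mul_sum]

lemma dirichlet_linv_le (v : Fin n → ℝ) : dirichlet n β g (linv v) ≤ ∑ i : Fin n, v i ^ 2 := by
  rw [dirichlet_eq]
  have h1 : ∀ i : Fin n, ∑ x : Fin n → Bool,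
      edgeW n β g i x * (linv v x - linv v (flipAt i x)) ^ 2 ≤ 2 * v i ^ 2 := by
    intro i
    have h2 : ∀ x : Fin n → Bool, edgeW n β g i x * (linv v x - linv v (flipAt i x)) ^ 2 ≤
        (gibbs n β g x + gibbs n β g (flipAt i x)) * v i ^ 2 := by
      intro x
      have h3 : (linv v x - linv v (flipAt i x)) ^ 2 = 4 * v i ^ 2 := by
        rw [linv_flipAt]
        have e1 := spin_mul_self (x i)
        have : (linv v x - (linv v x - 2 * (v i * spin (x i)))) ^ 2 =
            4 * v i ^ 2 * (spin (x i) * spin (x i)) := by ring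
        rw [this, e1]; ring
      rw [h3]
      have h4 := edgeW_le (n := n) (β := β) (g := g) i x
      have h5 : 0 ≤ v i ^ 2 := sq_nonneg _
      nlinarith
    calc ∑ x : Fin n → Bool, edgeW n β g i x * (linv v x - linv v (flipAt i x)) ^ 2
        ≤ ∑ x : Fin n → Bool, (gibbs n β g x + gibbs n β g (flipAt i x)) * v i ^ 2 :=
          Finset.sum_le_sum (fun x _ => h2 x)
      _ = 2 * v i ^ 2 := by
          rw [← Finset.sum_mul, Finset.sum_add_distrib,
            sum_flipAt (fun x => gibbs n β g x) i, sum_gibbs]
          norm_num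
  calc (1 / 2) * ∑ i : Fin n, ∑ x : Fin n → Bool,
        edgeW n β g i x * (linv v x - linv v (flipAt i x)) ^ 2
      ≤ (1 / 2) * ∑ i : Fin n, 2 * v i ^ 2 := by
        apply mul_le_mul_of_nonneg_left (Finset.sum_le_sum (fun i _ => h1 i)) (by norm_num)
    _ = ∑ i : Fin n, v i ^ 2 := by
        rw [← Finset.mul_sum]
        ring

/-- The relaxation time dominates the Rayleigh quotients of the matrix of two-point correlations. -/
theorem gap_corr_bound (v : Fin n → ℝ) :
    gap n β g * (∑ i : Fin n, ∑ j : Fin n,
        v i * v j * expect n β g (fun x => spin (x i) * spin (x j))) ≤ ∑ i : Fin n, v i ^ 2 := by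
  rw [← variance_linv_corr]
  exact (gap_mul_variance_le (linv v)).trans (dirichlet_linv_le v)

lemma sq_mul_overlapSq (hn : 0 < n) :
    (n : ℝ) ^ 2 * overlapSq n β g =
      ∑ y : Fin n → Bool, gibbs n β g y * variance n β g (linv (fun i => spin (y i))) := by
  have hn' : (n : ℝ) ≠ 0 := by exact_mod_cast hn.ne'
  unfold overlapSq
  rw [Finset.sum_comm, Finset.mul_sum]
  apply Finset.sum_congr rfl
  intro y _
  rw [variance_linv, Finset.mul_sum, Finset.mul_sum]
  apply Finset.sum_congr rfl
  intro x _
  have h : linv (fun i => spin (y i)) x = ∑ i : Fin n, spin (x i) * spin (y i) := by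
    unfold linv
    apply Finset.sum_congr rfl
    intro i _
    ring
  rw [h]
  field_simp

theorem gap_overlap_bound (hn : 0 < n) : gap n β g * (n * overlapSq n β g) ≤ 1 := by
  have hn' : (0 : ℝ) < n := by exact_mod_cast hn
  have h1 : gap n β g * ((n : ℝ) ^ 2 * overlapSq n β g) ≤ n := by
    rw [sq_mul_overlapSq hn, Finset.mul_sum]
    calc ∑ y : Fin n → Bool,
          gap n β g * (gibbs n β g y * variance n β g (linv (fun i => spin (y i))))
        ≤ ∑ y : Fin n → Bool, gibbs n β g y * n := by
          apply Finset.sum_le_sum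
          intro y _
          have h2 := gap_mul_variance_le (n := n) (β := β) (g := g) (linv (fun i => spin (y i)))
          have h3 := dirichlet_linv_le (n := n) (β := β) (g := g) (fun i => spin (y i))
          have h5 : ∑ i : Fin n, spin (y i) ^ 2 = n := by
            have : ∀ i : Fin n, spin (y i) ^ 2 = 1 := by
              intro i; rw [sq]; exact spin_mul_self (y i)
            simp [this]
          rw [h5] at h3
          have h4 := gibbs_pos (n := n) (β := β) (g := g) y
          calc gap n β g * (gibbs n β g y * variance n β g (linv (fun i => spin (y i))))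
              = gibbs n β g y * (gap n β g * variance n β g (linv (fun i => spin (y i)))) := by
                ring
            _ ≤ gibbs n β g y * n := mul_le_mul_of_nonneg_left (h2.trans h3) h4.le
      _ = n := by rw [← Finset.sum_mul, sum_gibbs, one_mul]
  have h2 : gap n β g * (n * overlapSq n β g) * n ≤ 1 * n := by
    calc gap n β g * (n * overlapSq n β g) * n
        = gap n β g * ((n : ℝ) ^ 2 * overlapSq n β g) := by ring
      _ ≤ n := h1
      _ = 1 * n := by ring
  exact le_of_mul_le_mul_right h2 hn'

end Vale.Agent.Lib.P150
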